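import Vale.Agent.P273.H879.Bnd
import Vale.Agent.P273.H883.Open1

/-!
P273, row NEG, part (b): `CptOf`. The points of a one-node region over a compact set of merged
configurations, with same type marks apart and no mark near the other roots, form a compact set of
admissible points; so the form of the region is bounded there.
-/

noncomputable section

namespace Vale.Agent.P273.H752

open Set Filter H95 H879 H883
open scoped Topology ContDiff

/-! ### merged configurations -/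

theorem ne_of_XD {k : Fin 5} {b : H681.C6} (hb : b ∈ H828.XD k) {i j : Fin 6} (hij : i < j)
    (h : i ≠ k.castSucc ∨ j ≠ k.succ) : b i ≠ b j := by
  intro he
  have h1 := hb.2 i j hij h (by rw [he])
  rw [he] at h1
  exact lt_irrefl _ h1

theorem exists_gap {k : Fin 5} {K : Set H681.C6} (hK : K ⊆ H828.XD k) (hKc : IsCompact K) :
    ∃ δ > 0, ∀ b ∈ K, ∀ i j : Fin 6, i < j → (i ≠ k.castSucc ∨ j ≠ k.succ) →
      δ ≤ ‖b i - b j‖ := by
  have h : ∀ x : Fin 6 × Fin 6, ∃ δ : ℝ, 0 < δ ∧ (x.1 < x.2 →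
      (x.1 ≠ k.castSucc ∨ x.2 ≠ k.succ) → ∀ b ∈ K, δ ≤ ‖b x.1 - b x.2‖) := by
    intro x
    by_cases hx : x.1 < x.2 ∧ (x.1 ≠ k.castSucc ∨ x.2 ≠ k.succ)
    · have hc : ContinuousOn (fun b : H681.C6 => ‖b x.1 - b x.2‖) K :=
        (((continuous_apply x.1).sub (continuous_apply x.2)).norm).continuousOn
      obtain ⟨δ, hδ, h⟩ := hKc.exists_forall_le' hc (a := 0) fun b hb =>
        norm_pos_iff.2 (sub_ne_zero.2 (ne_of_XD (hK hb) hx.1 hx.2))
      exact ⟨δ, hδ, fun _ _ => h⟩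
    · exact ⟨1, one_pos, fun h1 h2 => absurd ⟨h1, h2⟩ hx⟩
  choose d hd h using h
  obtain ⟨δ, hδ, h2⟩ := exists_small hd
  exact ⟨δ, hδ, fun b hb i j hij hne => (h2 (i, j)).trans (h (i, j) hij hne b hb)⟩

/-- The merged configuration of a point of the region. -/
def bs (R : Region1) (k : Fin 5) (q : R.Sp) : H681.C6 :=
  H828.pr k (fun j => R.oth q (oj k j)) (R.ctr q) 0

/-- The root with number `l` among the other four. -/
def jo (k : Fin 5) (l : Fin 4) : Fin 6 :=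
  ⟨if l.1 < k.1 then l.1 else l.1 + 2, by split_ifs <;> omega⟩

theorem jo_ne1 (k : Fin 5) (l : Fin 4) : jo k l ≠ k.castSucc := by
  intro h
  have h1 := congrArg Fin.val h
  simp only [jo, Fin.val_castSucc] at h1
  split_ifs at h1 <;> omega

theorem jo_ne2 (k : Fin 5) (l : Fin 4) : jo k l ≠ k.succ := by
  intro h
  have h1 := congrArg Fin.val h
  simp only [jo, Fin.val_succ] at h1
  split_ifs at h1 <;> omega

theorem oj_jo (k : Fin 5) (l : Fin 4) : oj k (jo k l) = l := by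
  apply Fin.ext
  simp only [oj, jo]
  split_ifs <;> omega

theorem jo_ne {k : Fin 5} {l l' : Fin 4} (h : l ≠ l') : jo k l ≠ jo k l' := by
  intro h1
  apply h
  rw [← oj_jo k l, h1, oj_jo]

section Reg

variable {R : Region1} {k : Fin 5} {q : R.Sp}

theorem bs_castSucc : bs R k q k.castSucc = R.ctr q := by
  simp [bs, H828.pr]

theorem bs_jo (l : Fin 4) : bs R k q (jo k l) = R.oth q l := by
  simp only [bs, H828.pr, if_neg (jo_ne1 k l), if_neg (jo_ne2 k l), oj_jo]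

variable {K : Set H681.C6} {δ : ℝ}

theorem far_ctr (h : ∀ b ∈ K, ∀ i j : Fin 6, i < j → (i ≠ k.castSucc ∨ j ≠ k.succ) →
    δ ≤ ‖b i - b j‖) (hq : bs R k q ∈ K) (l : Fin 4) : δ ≤ ‖R.ctr q - R.oth q l‖ := by
  rcases lt_or_gt_of_ne (jo_ne1 k l) with h1 | h1
  · have h2 := h _ hq _ _ h1 (Or.inl (jo_ne1 k l))
    rwa [bs_castSucc, bs_jo, norm_sub_rev] at h2
  · have h2 := h _ hq _ _ h1 (Or.inr (jo_ne2 k l))
    rwa [bs_castSucc, bs_jo] at h2

theorem far_oth (h : ∀ b ∈ K, ∀ i j : Fin 6, i < j → (i ≠ k.castSucc ∨ j ≠ k.succ) →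
    δ ≤ ‖b i - b j‖) (hq : bs R k q ∈ K) {l l' : Fin 4} (hl : l ≠ l') :
    δ ≤ ‖R.oth q l - R.oth q l'‖ := by
  rcases lt_or_gt_of_ne (jo_ne (k := k) hl) with h1 | h1
  · have h2 := h _ hq _ _ h1 (Or.inl (jo_ne1 k l))
    rwa [bs_jo, bs_jo] at h2
  · have h2 := h _ hq _ _ h1 (Or.inr (jo_ne2 k l))
    rwa [bs_jo, bs_jo, norm_sub_rev] at h2

end Reg

/-! ### continuity -/

section Cont

variable (R : Region1)

theorem c_ctr : Continuous fun q : R.Sp => R.ctr q :=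
  continuous_iff_continuousAt.2 fun _ => an_ctr.continuousAt

theorem c_oth (l : Fin 4) : Continuous fun q : R.Sp => R.oth q l :=
  continuous_iff_continuousAt.2 fun _ => (an_oth l).continuousAt

theorem c_eps : Continuous fun q : R.Sp => R.eps q :=
  continuous_iff_continuousAt.2 fun _ => an_eps.continuousAt

theorem c_XX (i : ℕ) : Continuous fun q : R.Sp => R.XX q i :=
  continuous_iff_continuousAt.2 fun _ => (an_XX i).continuousAt

theorem c_YY (i : ℕ) : Continuous fun q : R.Sp => R.YY q i :=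
  continuous_iff_continuousAt.2 fun _ => (an_YY i).continuousAt

theorem c_pos (j : L) : Continuous fun q : R.Sp => R.pos q j :=
  continuous_iff_continuousAt.2 fun _ => (an_pos j).continuousAt

theorem c_gap (g : Fin (R.n + 1)) : Continuous fun q : R.Sp => q.1 g :=
  (continuous_apply g).comp continuous_fst

theorem c_pol (S : L → Bool) (j : L) :
    Continuous fun q : R.Sp => pol (S j) (R.cf q) (R.pos q j) :=
  continuous_iff_continuousAt.2 fun _ => (an_polj S j).continuousAt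

theorem c_prod : Continuous fun q : R.Sp => ∏ l : Fin 4, (R.ctr q - R.oth q l) :=
  continuous_finsetProd _ fun l _ => (c_ctr R).sub (c_oth R l)

theorem c_bs (k : Fin 5) : Continuous fun q : R.Sp => bs R k q := by
  refine continuous_pi fun j => ?_
  simp only [bs, H828.pr]
  split_ifs
  · exact (c_ctr R).sub continuous_const
  · exact (c_ctr R).add continuous_const
  · exact c_oth R _

theorem c_mu (a b : ℕ) : Continuous fun q : R.Sp =>
    ∏ g : Fin (R.n + 1), (if a < (g : ℕ) ∧ (g : ℕ) ≤ b then q.1 g else 1) := by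
  refine continuous_finsetProd _ fun g _ => ?_
  split_ifs
  · exact c_gap R g
  · exact continuous_const

end Cont

/-! ### the compact set -/

/-- The points of the region. -/
structure Bs (R : Region1) (S : L → Bool) (k : Fin 5) (K : Set H681.C6) (c R₀ η r : ℝ)
    (q : R.Sp) : Prop where
  base : bs R k q ∈ K
  gap : ∀ g, ‖q.1 g‖ ≤ 1
  eps : ‖R.eps q‖ ≤ η
  neck : ∀ j, R.nk j = true → ‖R.XX q (R.rk j)‖ ≤ c ∧ ‖R.YY q (R.rk j)‖ ≤ c
  inf : ∀ j, R.nk j = false → S j = true → ‖R.pos q j‖ ≤ R₀⁻¹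
  fin : ∀ j, R.nk j = false → S j = false → ‖R.pos q j‖ ≤ R₀ ∧ c / 4 ≤ ‖R.pos q j - R.ctr q‖
  oth : ∀ j, R.nk j = false → S j = false → ∀ l, r ≤ ‖R.pos q j - R.oth q l‖

/-- Points and sheets. -/
structure Q1 (R : Region1) (S : L → Bool) (k : Fin 5) (K : Set H681.C6) (c R₀ η r : ℝ)
    (x : R.Sp × ℂ × (L → ℂ)) : Prop where
  b : Bs R S k K c R₀ η r x.1
  sh : R.isSheet S x.1 x.2.1 x.2.2
  z : ∀ j, R.nk j = true → x.2.2 j = 0

section Cpt

variable {R : Region1} {S : L → Bool} {k : Fin 5} {K : Set H681.C6} {c R₀ η r : ℝ}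

theorem closed_Bs (hKc : IsClosed K) : IsClosed {q : R.Sp | Bs R S k K c R₀ η r q} := by
  have h : {q : R.Sp | Bs R S k K c R₀ η r q} = {q | bs R k q ∈ K ∧ (∀ g, ‖q.1 g‖ ≤ 1) ∧
      ‖R.eps q‖ ≤ η ∧
      (∀ j, R.nk j = true → ‖R.XX q (R.rk j)‖ ≤ c ∧ ‖R.YY q (R.rk j)‖ ≤ c) ∧
      (∀ j, R.nk j = false → S j = true → ‖R.pos q j‖ ≤ R₀⁻¹) ∧
      (∀ j, R.nk j = false → S j = false → ‖R.pos q j‖ ≤ R₀ ∧ c / 4 ≤ ‖R.pos q j - R.ctr q‖) ∧
      ∀ j, R.nk j = false → S j = false → ∀ l, r ≤ ‖R.pos q j - R.oth q l‖} := by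
    ext q
    exact ⟨fun h => ⟨h.1, h.2, h.3, h.4, h.5, h.6, h.7⟩,
      fun ⟨h1, h2, h3, h4, h5, h6, h7⟩ => ⟨h1, h2, h3, h4, h5, h6, h7⟩⟩
  rw [h]
  simp only [ofPred_and, ofPred_forall]
  refine (hKc.preimage (c_bs R k)).inter ((isClosed_iInter fun g =>
    isClosed_le (c_gap R g).norm continuous_const).inter
    ((isClosed_le (c_eps R).norm continuous_const).inter
    ((isClosed_iInter fun j => isClosed_iInter fun _ =>
      (isClosed_le (c_XX R _).norm continuous_const).inter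
        (isClosed_le (c_YY R _).norm continuous_const)).inter
    ((isClosed_iInter fun j => isClosed_iInter fun _ => isClosed_iInter fun _ =>
      isClosed_le (c_pos R j).norm continuous_const).inter
    ((isClosed_iInter fun j => isClosed_iInter fun _ => isClosed_iInter fun _ =>
      (isClosed_le (c_pos R j).norm continuous_const).inter
        (isClosed_le continuous_const ((c_pos R j).sub (c_ctr R)).norm)).inter
    (isClosed_iInter fun j => isClosed_iInter fun _ => isClosed_iInter fun _ =>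
      isClosed_iInter fun l =>
        isClosed_le continuous_const ((c_pos R j).sub (c_oth R l)).norm))))))

theorem bdd_Bs {C : ℝ} (hC : ∀ b ∈ K, ‖b‖ ≤ C) :
    ∃ C' : ℝ, 0 ≤ C' ∧ ∀ q : R.Sp, Bs R S k K c R₀ η r q → ‖q‖ ≤ C' := by
  refine ⟨max 1 (max (max C R₀) R₀⁻¹), le_max_of_le_left zero_le_one, fun q hq => ?_⟩
  have h0 : (0 : ℝ) ≤ max 1 (max (max C R₀) R₀⁻¹) := le_max_of_le_left zero_le_one
  have hb := hC _ hq.base
  have hC1 : C ≤ max 1 (max (max C R₀) R₀⁻¹) :=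
    (le_max_left _ _).trans ((le_max_left _ _).trans (le_max_right _ _))
  have hC2 : R₀ ≤ max 1 (max (max C R₀) R₀⁻¹) :=
    (le_max_right _ _).trans ((le_max_left _ _).trans (le_max_right _ _))
  have hC3 : R₀⁻¹ ≤ max 1 (max (max C R₀) R₀⁻¹) := (le_max_right _ _).trans (le_max_right _ _)
  rw [Prod.norm_def]
  refine max_le ((pi_norm_le_iff_of_nonneg h0).2 fun g => (hq.gap g).trans (le_max_left _ _))
    ((pi_norm_le_iff_of_nonneg h0).2 fun i => ?_)
  rcases i with ⟨j, hj⟩ | i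
  · rw [← pos_core hj]
    cases hS : S j with
    | true => exact (hq.inf j hj hS).trans hC3
    | false => exact (hq.fin j hj hS).1.trans hC2
  · induction i using Fin.cases with
    | zero =>
      have h1 := norm_le_pi_norm (bs R k q) k.castSucc
      rw [bs_castSucc] at h1
      exact (h1.trans hb).trans hC1
    | succ l =>
      have h1 := norm_le_pi_norm (bs R k q) (jo k l)
      rw [bs_jo] at h1
      exact (h1.trans hb).trans hC1

theorem compact_Bs (hKc : IsCompact K) : IsCompact {q : R.Sp | Bs R S k K c R₀ η r q} := by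
  obtain ⟨C, hC⟩ := hKc.isBounded.exists_norm_le
  obtain ⟨C', -, hC'⟩ := bdd_Bs (R := R) (S := S) (k := k) (c := c) (R₀ := R₀) (η := η) (r := r) hC
  exact Metric.isCompact_of_isClosed_isBounded (closed_Bs hKc.isClosed)
    (isBounded_iff_forall_norm_le.2 ⟨C', hC'⟩)

theorem closed_Q1 (hKc : IsClosed K) :
    IsClosed {x : R.Sp × ℂ × (L → ℂ) | Q1 R S k K c R₀ η r x} := by
  have h : {x : R.Sp × ℂ × (L → ℂ) | Q1 R S k K c R₀ η r x} = {x | Bs R S k K c R₀ η r x.1 ∧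
      x.2.1 ^ 2 = ∏ l : Fin 4, (R.ctr x.1 - R.oth x.1 l) ∧
      (∀ j, R.nk j = false → x.2.2 j ^ 2 = pol (S j) (R.cf x.1) (R.pos x.1 j)) ∧
      ∀ j, R.nk j = true → x.2.2 j = 0} := by
    ext x
    exact ⟨fun h => ⟨h.1, h.2.1, h.2.2, h.3⟩, fun ⟨h1, h2, h3, h4⟩ => ⟨h1, ⟨h2, h3⟩, h4⟩⟩
  rw [h]
  have e : ∀ j : L, Continuous fun x : R.Sp × ℂ × (L → ℂ) => x.2.2 j := fun j =>
    (continuous_apply j).comp (continuous_snd.comp continuous_snd)
  simp only [ofPred_and, ofPred_forall]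
  exact ((closed_Bs hKc).preimage continuous_fst).inter
    ((isClosed_eq ((continuous_fst.comp continuous_snd).pow 2) ((c_prod R).comp continuous_fst)).inter
    ((isClosed_iInter fun j => isClosed_iInter fun _ =>
      isClosed_eq ((e j).pow 2) ((c_pol R S j).comp continuous_fst)).inter
    (isClosed_iInter fun j => isClosed_iInter fun _ => isClosed_eq (e j) continuous_const)))

theorem norm_le_of_sq {z w : ℂ} {C : ℝ} (h : z ^ 2 = w) (hw : ‖w‖ ≤ C) : ‖z‖ ≤ max 1 C := by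
  rcases le_total ‖z‖ 1 with h1 | h1
  · exact h1.trans (le_max_left _ _)
  · refine le_trans ?_ (hw.trans (le_max_right _ _))
    rw [← h, norm_pow]
    nlinarith [norm_nonneg z]

theorem compact_Q1 (hKc : IsCompact K) :
    IsCompact {x : R.Sp × ℂ × (L → ℂ) | Q1 R S k K c R₀ η r x} := by
  obtain ⟨C, hC⟩ := hKc.isBounded.exists_norm_le
  obtain ⟨C', hC0, hC'⟩ := bdd_Bs (R := R) (S := S) (k := k) (c := c) (R₀ := R₀) (η := η)
    (r := r) hC
  have hB := compact_Bs (R := R) (S := S) (k := k) (c := c) (R₀ := R₀) (η := η) (r := r) hKc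
  obtain ⟨Cg, hg⟩ := hB.exists_bound_of_continuousOn (c_prod R).continuousOn
  have hv : ∀ j : L, ∃ Cv : ℝ, ∀ q : R.Sp, Bs R S k K c R₀ η r q →
      ‖pol (S j) (R.cf q) (R.pos q j)‖ ≤ Cv := fun j =>
    hB.exists_bound_of_continuousOn (c_pol R S j).continuousOn
  choose Cv hv using hv
  refine Metric.isCompact_of_isClosed_isBounded (closed_Q1 hKc.isClosed)
    (isBounded_iff_forall_norm_le.2 ⟨max C' (max (max 1 Cg) (∑ j, max 1 (Cv j))), fun x hx => ?_⟩)
  have h0 : ∀ j : L, (0 : ℝ) ≤ max 1 (Cv j) := fun j => le_max_of_le_left zero_le_one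
  have hs : (0 : ℝ) ≤ ∑ j, max 1 (Cv j) := Finset.sum_nonneg fun j _ => h0 j
  rw [Prod.norm_def, Prod.norm_def]
  refine max_le ((hC' _ hx.b).trans (le_max_left _ _)) (max_le ?_ ?_)
  · exact (norm_le_of_sq hx.sh.1 (hg _ hx.b)).trans
      ((le_max_left _ _).trans (le_max_right _ _))
  · refine le_trans ?_ ((le_max_right _ _).trans (le_max_right _ _))
    refine (pi_norm_le_iff_of_nonneg hs).2 fun j => ?_
    cases hj : R.nk j with
    | true => rw [hx.z j hj, norm_zero]; exact hs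
    | false =>
      exact (norm_le_of_sq (hx.sh.2 j hj) (hv j _ hx.b)).trans
        (Finset.single_le_sum (f := fun j => max 1 (Cv j)) (fun j _ => h0 j)
          (Finset.mem_univ j))

end Cpt

/-! ### same type marks apart -/

section Ok

variable {R : Region1} {S : L → Bool} {k : Fin 5} {K : Set H681.C6} {c R₀ η r δ C : ℝ}

/-- The constants fit. -/
structure Fit (K : Set H681.C6) (k : Fin 5) (c R₀ η r δ C : ℝ) : Prop where
  gap : ∀ b ∈ K, ∀ i j : Fin 6, i < j → (i ≠ k.castSucc ∨ j ≠ k.succ) → δ ≤ ‖b i - b j‖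
  bd : ∀ b ∈ K, ‖b‖ ≤ C
  pc : 0 < c
  pr : 0 < r
  pδ : 0 < δ
  cδ : c < δ / 8
  ηδ : η < δ ^ 2 / 4096
  ηc : η < (c / 4) ^ 2 / 4
  η1 : η < 1 / 16
  R0 : 1 ≤ R₀
  CR : C * R₀⁻¹ ≤ 1 / 2

theorem Fit.R0' (hF : Fit K k c R₀ η r δ C) : 0 < R₀⁻¹ ∧ R₀⁻¹ ≤ 1 :=
  ⟨inv_pos.2 (zero_lt_one.trans_le hF.R0), inv_le_one_of_one_le₀ hF.R0⟩

theorem neck_ok (hF : Fit K k c R₀ η r δ C) {q : R.Sp} (hq : Bs R S k K c R₀ η r q) {j : L}
    (hj : R.nk j = true) (l : Fin 4) : ‖R.XX q (R.rk j)‖ < ‖R.ctr q - R.oth q l‖ / 8 ∧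
      ‖R.YY q (R.rk j)‖ < ‖R.ctr q - R.oth q l‖ / 8 := by
  have h1 := far_ctr hF.gap hq.base l
  have h2 := hq.neck j hj
  have h3 := hF.cδ
  constructor <;> linarith [h2.1, h2.2]

theorem norm_ctr_le (hF : Fit K k c R₀ η r δ C) {q : R.Sp} (hq : Bs R S k K c R₀ η r q) :
    ‖R.ctr q‖ ≤ C := by
  have h1 := norm_le_pi_norm (bs R k q) k.castSucc
  rw [bs_castSucc] at h1
  exact h1.trans (hF.bd _ hq.base)

theorem norm_oth_le (hF : Fit K k c R₀ η r δ C) {q : R.Sp} (hq : Bs R S k K c R₀ η r q)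
    (l : Fin 4) : ‖R.oth q l‖ ≤ C := by
  have h1 := norm_le_pi_norm (bs R k q) (jo k l)
  rw [bs_jo] at h1
  exact h1.trans (hF.bd _ hq.base)

/-- Near infinity. -/
theorem far_inf (hF : Fit K k c R₀ η r δ C) {a w : ℂ} (ha : ‖a‖ ≤ C) (hw : ‖w‖ ≤ R₀⁻¹) :
    1 / 2 ≤ ‖1 - a * w‖ := by
  have h1 : ‖a * w‖ ≤ 1 / 2 := by
    rw [norm_mul]
    refine (mul_le_mul ha hw (norm_nonneg _) ((norm_nonneg _).trans ha)).trans hF.CR
  have h2 := norm_sub_norm_le (1 : ℂ) (a * w)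
  rw [norm_one] at h2
  linarith

theorem core_inf (hF : Fit K k c R₀ η r δ C) {q : R.Sp} (hq : Bs R S k K c R₀ η r q) {j : L}
    (hj : R.nk j = false) (hS : S j = true) :
    ‖R.eps q * R.pos q j ^ 2‖ < ‖1 - R.ctr q * R.pos q j‖ ^ 2 / 4 := by
  have h1 := far_inf hF (norm_ctr_le hF hq) (hq.inf j hj hS)
  have h2 : ‖R.eps q * R.pos q j ^ 2‖ ≤ η := by
    rw [norm_mul, norm_pow]
    have h3 : ‖R.pos q j‖ ≤ 1 := (hq.inf j hj hS).trans hF.R0'.2
    have h4 : ‖R.pos q j‖ ^ 2 ≤ 1 := pow_le_one₀ (norm_nonneg _) h3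
    calc ‖R.eps q‖ * ‖R.pos q j‖ ^ 2 ≤ ‖R.eps q‖ * 1 :=
          mul_le_mul_of_nonneg_left h4 (norm_nonneg _)
      _ = ‖R.eps q‖ := mul_one _
      _ ≤ η := hq.eps
  have h3 := hF.η1
  nlinarith

theorem core_fin (hF : Fit K k c R₀ η r δ C) {q : R.Sp} (hq : Bs R S k K c R₀ η r q) {j : L}
    (hj : R.nk j = false) (hS : S j = false) :
    ‖R.eps q‖ < ‖R.pos q j - R.ctr q‖ ^ 2 / 4 := by
  have h1 := (hq.fin j hj hS).2
  have h2 := hF.ηc
  have h3 := hF.pc
  have h4 : (c / 4) ^ 2 ≤ ‖R.pos q j - R.ctr q‖ ^ 2 := pow_le_pow_left₀ (by positivity) h1 2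
  have h5 := hq.eps
  linarith

theorem pol_ne (hF : Fit K k c R₀ η r δ C) {q : R.Sp} (hq : Bs R S k K c R₀ η r q) {j : L}
    (hj : R.nk j = false) : pol (S j) (R.cf q) (R.pos q j) ≠ 0 := by
  cases hS : S j with
  | true =>
    rw [H724.pol_true, sw_cf]
    refine mul_ne_zero (fun h => ?_) (Finset.prod_ne_zero_iff.2 fun l _ h => ?_)
    · have h1 := core_inf hF hq hj hS
      have h2 : R.eps q * R.pos q j ^ 2 = (1 - R.ctr q * R.pos q j) ^ 2 := by
        linear_combination -h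
      rw [h2, norm_pow] at h1
      nlinarith [norm_nonneg (1 - R.ctr q * R.pos q j)]
    · have h1 := far_inf hF (norm_oth_le hF hq l) (hq.inf j hj hS)
      rw [h, norm_zero] at h1
      linarith
  | false =>
    rw [H724.pol_false, sx_cf]
    refine mul_ne_zero (fun h => ?_) (Finset.prod_ne_zero_iff.2 fun l _ h => ?_)
    · have h1 := core_fin hF hq hj hS
      have h2 : R.eps q = (R.pos q j - R.ctr q) ^ 2 := by linear_combination -h
      rw [h2, norm_pow] at h1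
      nlinarith [norm_nonneg (R.pos q j - R.ctr q)]
    · have h1 := hq.oth j hj hS l
      rw [h, norm_zero] at h1
      linarith [hF.pr]

/-- **The points of the set are admissible.** -/
theorem ok_of (hF : Fit K k c R₀ η r δ C) {x : R.Sp × ℂ × (L → ℂ)}
    (hx : Q1 R S k K c R₀ η r x)
    (hcl : ∀ i j : L, i ≠ j → i.2 = j.2 → ¬ Close r S x.1 x.2.1 x.2.2 i j) :
    R.ok S x.1 x.2.1 x.2.2 := by
  have hq := hx.b
  have hr := hF.pr
  refine ⟨fun l => ?_, fun l l' h => ?_, hx.sh, fun j hj => ⟨fun h => ?_, ?_⟩,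
    fun j hj l => neck_ok hF hq hj l, fun i j hij ht hn hs => ?_, fun i j hi hj ht hr' h => ?_⟩
  · have h1 := far_ctr hF.gap hq.base l
    have h2 := hF.pδ
    have h3 : δ ^ 2 ≤ ‖R.ctr x.1 - R.oth x.1 l‖ ^ 2 := pow_le_pow_left₀ h2.le h1 2
    refine ⟨fun h => ?_, ?_⟩
    · rw [h, sub_self, norm_zero] at h1
      linarith
    · linarith [hF.ηδ, hq.eps]
  · by_contra hl
    have h1 := far_oth hF.gap hq.base hl
    rw [h, sub_self, norm_zero] at h1
    linarith [hF.pδ]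
  · have h1 := hx.sh.2 j hj
    rw [h, zero_pow two_ne_zero] at h1
    exact pol_ne hF hq hj h1.symm
  · by_cases hS : S j = true
    · rw [if_pos hS]; exact core_inf hF hq hj hS
    · rw [if_neg hS]; exact core_fin hF hq hj (by simpa using hS)
  · apply hcl i j hij ht
    unfold Close
    unfold Same at hs
    rw [if_neg hn]
    by_cases hS : S i = S j
    · rw [if_pos hS] at hs ⊢
      rw [hs.1, hs.2, sub_self, sub_self, norm_zero]
      exact ⟨hr, hr⟩
    · rw [if_neg hS] at hs ⊢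
      rw [hs.1, hs.2, sub_self, sub_self, norm_zero]
      exact ⟨hr, hr⟩
  · have hij : i ≠ j := fun e => by rw [e] at hr'; exact lt_irrefl _ hr'
    apply hcl i j hij ht
    unfold Close
    rw [if_pos ⟨hi, hj⟩]
    refine ⟨hr', ?_⟩
    rw [h, sub_self, norm_zero]
    exact hr

theorem cont_sht (hF : Fit K k c R₀ η r δ C) (j : L) :
    ContinuousOn (fun x : R.Sp × ℂ × (L → ℂ) => R.sht x.1 x.2.1 x.2.2 j)
      {x | Q1 R S k K c R₀ η r x} := by
  cases hj : R.nk j with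
  | false =>
    simp only [sht_core hj]
    exact ((continuous_apply j).comp (continuous_snd.comp continuous_snd)).continuousOn
  | true =>
    simp only [sht_neck hj]
    intro x hx
    refine ContinuousAt.continuousWithinAt ?_
    have h1 : ContinuousAt (fun x : R.Sp × ℂ × (L → ℂ) => nf R x.1 j) x :=
      ContinuousAt.comp (g := fun q : R.Sp => nf R q j)
        (an_nf hj (neck_ok hF hx.b hj)).continuousAt continuous_fst.continuousAt
    exact (((continuous_fst.comp continuous_snd).continuousAt.mul h1).mul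
      ((((c_XX R _).comp continuous_fst).sub ((c_YY R _).comp continuous_fst)).continuousAt)).div_const 2

theorem closed_pair (hF : Fit K k c R₀ η r δ C) (hKc : IsClosed K) (i j : L) :
    IsClosed {x : R.Sp × ℂ × (L → ℂ) | Q1 R S k K c R₀ η r x ∧
      ¬ Close r S x.1 x.2.1 x.2.2 i j} := by
  have hQ := closed_Q1 (R := R) (S := S) (k := k) (c := c) (R₀ := R₀) (η := η) (r := r) hKc
  have key : ∀ f : R.Sp × ℂ × (L → ℂ) → ℂ, ContinuousOn f {x | Q1 R S k K c R₀ η r x} →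
      IsClosed {x : R.Sp × ℂ × (L → ℂ) | Q1 R S k K c R₀ η r x ∧ ¬ ‖f x‖ < r} := by
    intro f hf
    have h1 := hf.norm.preimage_isClosed_of_isClosed hQ (isClosed_Ici (a := r))
    have h2 : {x : R.Sp × ℂ × (L → ℂ) | Q1 R S k K c R₀ η r x ∧ ¬ ‖f x‖ < r} =
        {x | Q1 R S k K c R₀ η r x} ∩ (fun x => ‖f x‖) ⁻¹' Ici r := by
      ext x
      simp only [mem_ofPred_eq, not_lt, mem_inter_iff, mem_preimage, mem_Ici]
    rw [h2]
    exact h1
  have key2 : ∀ f f' : R.Sp × ℂ × (L → ℂ) → ℂ,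
      ContinuousOn f {x | Q1 R S k K c R₀ η r x} →
      ContinuousOn f' {x | Q1 R S k K c R₀ η r x} →
      IsClosed {x : R.Sp × ℂ × (L → ℂ) | Q1 R S k K c R₀ η r x ∧
        ¬ (‖f x‖ < r ∧ ‖f' x‖ < r)} := by
    intro f f' hf hf'
    have h2 : {x : R.Sp × ℂ × (L → ℂ) | Q1 R S k K c R₀ η r x ∧ ¬ (‖f x‖ < r ∧ ‖f' x‖ < r)} =
        {x | Q1 R S k K c R₀ η r x ∧ ¬ ‖f x‖ < r} ∪
          {x | Q1 R S k K c R₀ η r x ∧ ¬ ‖f' x‖ < r} := by
      ext x
      simp only [mem_ofPred_eq, mem_union]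
      tauto
    rw [h2]
    exact (key f hf).union (key f' hf')
  have hp : ∀ j : L, Continuous fun x : R.Sp × ℂ × (L → ℂ) => R.pos x.1 j := fun j =>
    (c_pos R j).comp continuous_fst
  by_cases hn : R.nk i = true ∧ R.nk j = true
  · by_cases hr : R.rk i < R.rk j
    · have h1 := key _ (((c_mu R (R.rk i) (R.rk j)).comp continuous_fst).sub
        (continuous_const (y := (1 : ℂ)))).continuousOn
      refine (iff_of_eq (congrArg IsClosed ?_)).1 h1
      ext x
      simp only [mem_ofPred_eq, Close, if_pos hn, hr, true_and]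
      exact Iff.rfl
    · refine (iff_of_eq (congrArg IsClosed ?_)).1 hQ
      ext x
      simp only [mem_ofPred_eq, Close, if_pos hn, hr, false_and, not_false_eq_true, and_true]
  · by_cases hS : S i = S j
    · have h1 := key2 _ _ ((hp i).sub (hp j)).continuousOn ((cont_sht hF i).sub (cont_sht hF j))
      refine (iff_of_eq (congrArg IsClosed ?_)).1 h1
      ext x
      simp only [mem_ofPred_eq, Close, if_neg hn, if_pos hS, Pi.sub_apply]
    · have h1 := key2 _ _ (((hp i).mul (hp j)).sub (continuous_const (y := (1 : ℂ)))).continuousOn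
        ((cont_sht hF j).sub ((cont_sht hF i).mul ((hp j).pow 3).continuousOn))
      refine (iff_of_eq (congrArg IsClosed ?_)).1 h1
      ext x
      simp only [mem_ofPred_eq, Close, if_neg hn, if_neg hS, Pi.sub_apply, Pi.mul_apply]
      exact Iff.rfl

/-- The compact set. -/
def Qc (R : Region1) (S : L → Bool) (k : Fin 5) (K : Set H681.C6) (c R₀ η r : ℝ) :
    Set (R.Sp × ℂ × (L → ℂ)) :=
  {x | Q1 R S k K c R₀ η r x ∧ ∀ i j : L, i ≠ j → i.2 = j.2 → ¬ Close r S x.1 x.2.1 x.2.2 i j}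

theorem compact_Qc (hF : Fit K k c R₀ η r δ C) (hKc : IsCompact K) :
    IsCompact (Qc R S k K c R₀ η r) := by
  refine (compact_Q1 (R := R) (S := S) (k := k) (c := c) (R₀ := R₀) (η := η)
    (r := r) hKc).of_isClosed_subset ?_ fun x hx => hx.1
  have h : Qc R S k K c R₀ η r = {x | Q1 R S k K c R₀ η r x} ∩
      ⋂ i : L, ⋂ j : L, ⋂ _ : i ≠ j, ⋂ _ : i.2 = j.2,
        {x | Q1 R S k K c R₀ η r x ∧ ¬ Close r S x.1 x.2.1 x.2.2 i j} := by
    ext x
    simp only [Qc, mem_ofPred_eq, mem_inter_iff, mem_iInter]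
    exact ⟨fun h => ⟨h.1, fun i j h1 h2 => ⟨h.1, h.2 i j h1 h2⟩⟩,
      fun h => ⟨h.1, fun i j h1 h2 => (h.2 i j h1 h2).2⟩⟩
  rw [h]
  exact (closed_Q1 hKc.isClosed).inter (isClosed_iInter fun i => isClosed_iInter fun j =>
    isClosed_iInter fun _ => isClosed_iInter fun _ => closed_pair hF hKc.isClosed i j)

/-- **The form of the region is bounded on the compact set.** -/
theorem bdd_Qc (X : Ext) (hF : Fit K k c R₀ η r δ C) (hKc : IsCompact K)
    (hS : ∀ j, S j = true → R.nk j = false) :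
    ∃ B : ℝ, ∀ x ∈ Qc R S k K c R₀ η r, ‖X.H1 R S x.1 x.2.1 x.2.2‖ ≤ B := by
  refine (compact_Qc hF hKc).induction_on
    (p := fun s => ∃ B : ℝ, ∀ x ∈ s, ‖X.H1 R S x.1 x.2.1 x.2.2‖ ≤ B) ⟨0, by simp⟩ ?_ ?_ ?_
  · rintro s t hst ⟨B, hB⟩
    exact ⟨B, fun x hx => hB x (hst hx)⟩
  · rintro s t ⟨B, hB⟩ ⟨B', hB'⟩
    refine ⟨max B B', fun x hx => ?_⟩
    rcases hx with hx | hx
    · exact (hB x hx).trans (le_max_left _ _)
    · exact (hB' x hx).trans (le_max_right _ _)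
  · intro x hx
    obtain ⟨W, h, ρ, hW, hxW, hρ, hh, -, heq⟩ :=
      X.hreg1 R S hS x.1 x.2.1 x.2.2 (ok_of hF hx.1 hx.2)
    have e1 : ContinuousAt (fun y : R.Sp × ℂ × (L → ℂ) => ‖h y.1‖) x :=
      (ContinuousAt.comp (g := h) (hh.continuousOn.continuousAt (hW.mem_nhds hxW))
        continuous_fst.continuousAt).norm
    have e2 : ∀ᶠ y in 𝓝 x, ‖h y.1‖ < ‖h x.1‖ + 1 :=
      e1.eventually_lt continuousAt_const (lt_add_one _)
    have e3 : ∀ᶠ y in 𝓝 x, y.1 ∈ W :=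
      continuous_fst.continuousAt.eventually (hW.mem_nhds hxW)
    have e4 : ∀ᶠ y in 𝓝 x, ‖y.2.1 - x.2.1‖ < ρ := by
      have hc : Continuous fun y : R.Sp × ℂ × (L → ℂ) => ‖y.2.1 - x.2.1‖ :=
        ((continuous_fst.comp continuous_snd).sub continuous_const).norm
      refine hc.continuousAt.eventually_lt continuousAt_const ?_
      simpa using hρ
    have e5 : ∀ᶠ y in 𝓝 x, ∀ j : L, ‖y.2.2 j - x.2.2 j‖ < ρ := by
      rw [eventually_all]
      intro j
      have hc : Continuous fun y : R.Sp × ℂ × (L → ℂ) => ‖y.2.2 j - x.2.2 j‖ :=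
        (((continuous_apply j).comp (continuous_snd.comp continuous_snd)).sub
          continuous_const).norm
      refine hc.continuousAt.eventually_lt continuousAt_const ?_
      simpa using hρ
    refine ⟨{y | y ∈ Qc R S k K c R₀ η r ∧ ‖h y.1‖ < ‖h x.1‖ + 1 ∧ y.1 ∈ W ∧
      ‖y.2.1 - x.2.1‖ < ρ ∧ ∀ j : L, ‖y.2.2 j - x.2.2 j‖ < ρ}, ?_, ‖h x.1‖ + 1, ?_⟩
    · rw [mem_nhdsWithin_iff_eventually]
      filter_upwards [e2, e3, e4, e5] with y h2 h3 h4 h5 hy using ⟨hy, h2, h3, h4, h5⟩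
    · rintro y ⟨hy, h2, h3, h4, h5⟩
      rw [heq y.1 h3 y.2.1 y.2.2 hy.1.sh h4 fun j _ => h5 j]
      exact h2.le

end Ok

/-! ### the points of the chart -/

section Chart

variable {R : Region1} {m : Fin (R.n + 1)} {c : ℝ}

theorem norm_fac_le (hc : 0 < c) (h1 : c ≤ 1) (P : Prop) [Decidable P] :
    ‖(if P then (c : ℂ) else 1)‖ ≤ 1 := by
  split_ifs
  · rw [Complex.norm_real, Real.norm_eq_abs, abs_of_pos hc]; exact h1
  · rw [norm_one]

theorem norm_cw1_le (hc : 0 < c) (h1 : c ≤ 1) (g : Fin (R.n + 1)) : ‖cw1 c g‖ ≤ 1 := by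
  rw [cw1, norm_mul]
  exact mul_le_one₀ (norm_fac_le hc h1 _) (norm_nonneg _) (norm_fac_le hc h1 _)

theorem norm_cw1_zero (hc : 0 < c) (h1 : c ≤ 1) : ‖cw1 c (0 : Fin (R.n + 1))‖ ≤ c := by
  rw [cw1, norm_mul, if_pos rfl, Complex.norm_real, Real.norm_eq_abs, abs_of_pos hc]
  exact mul_le_of_le_one_right hc.le (norm_fac_le hc h1 _)

theorem norm_cw1_last (hc : 0 < c) (h1 : c ≤ 1) : ‖cw1 c (Fin.last R.n)‖ ≤ c := by
  rw [cw1, norm_mul, if_pos (rfl : Fin.last R.n = Fin.last R.n), Complex.norm_real,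
    Real.norm_eq_abs, abs_of_pos hc]
  exact mul_le_of_le_one_left hc.le (norm_fac_le hc h1 _)

theorem prod_cw1 : ∏ g : Fin (R.n + 1), cw1 c g = (c : ℂ) ^ 2 := by
  simp only [cw1, Finset.prod_mul_distrib, Finset.prod_ite_eq', Finset.mem_univ, if_true]
  ring

theorem norm_tau_le (p : Co1 R m) (hp : (wr R m).Inr p) (hy : 0 ≤ p.2.2.1 ())
    (g : Σ _ : Unit, Fin (R.n + 1)) : ‖(wr R m).tau p g‖ ≤ 1 := by
  rw [H732.Reg.norm_tau, Real.exp_le_one_iff, neg_nonpos]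
  exact (wr R m).ug_nonneg hp (fun _ => (wr R m).ul_nonneg hp () hy) g

theorem norm_gap_le {p : Co1 R m} (hp : (wr R m).Inr p)
    (hy : 0 ≤ p.2.2.1 ()) (g : Fin (R.n + 1)) :
    ‖(toSp c p).1 g‖ ≤ ‖cw1 c g‖ := by
  show ‖cw1 c g * (wr R m).tau p ⟨(), g⟩‖ ≤ _
  rw [norm_mul]
  exact mul_le_of_le_one_right (norm_nonneg _) (norm_tau_le p hp hy _)

theorem norm_prod_le' {n : ℕ} (f : Fin (n + 1) → ℂ) (h : ∀ g, ‖f g‖ ≤ 1) (a : Fin (n + 1))
    (ha : ‖f a‖ ≤ c) : ‖∏ g, f g‖ ≤ c := by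
  rw [← Finset.mul_prod_erase Finset.univ f (Finset.mem_univ a), norm_mul, norm_prod]
  have h1 : ∏ g ∈ Finset.univ.erase a, ‖f g‖ ≤ 1 :=
    Finset.prod_le_one (fun _ _ => norm_nonneg _) fun g _ => h g
  exact (mul_le_of_le_one_right (norm_nonneg _) h1).trans ha

theorem norm_XX_le {q : R.Sp} (h : ∀ g, ‖q.1 g‖ ≤ 1) (h0 : ‖q.1 0‖ ≤ c) (i : ℕ) :
    ‖R.XX q i‖ ≤ c := by
  refine norm_prod_le' _ (fun g => ?_) 0 ?_
  · by_cases hg : (g : ℕ) ≤ i
    · rw [if_pos hg]; exact h g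
    · rw [if_neg hg, norm_one]
  · rw [if_pos (by simp)]; exact h0

theorem norm_YY_le {q : R.Sp} (h : ∀ g, ‖q.1 g‖ ≤ 1) (h0 : ‖q.1 (Fin.last R.n)‖ ≤ c) {i : ℕ}
    (hi : i < R.n) : ‖R.YY q i‖ ≤ c := by
  refine norm_prod_le' _ (fun g => ?_) (Fin.last R.n) ?_
  · by_cases hg : i < (g : ℕ)
    · rw [if_pos hg]; exact h g
    · rw [if_neg hg, norm_one]
  · rw [if_pos (by simpa using hi)]; exact h0

theorem norm_eps_toSp (hc : 0 < c) (p : Co1 R m) :
    ‖R.eps (toSp c p)‖ = c ^ 2 * Real.exp (-p.2.2.1 ()) := by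
  have h1 : R.eps (toSp c p) = (∏ g : Fin (R.n + 1), cw1 c g) *
      ∏ g : Fin (R.n + 1), (wr R m).tau p ⟨(), g⟩ := by
    rw [← Finset.prod_mul_distrib]
    rfl
  have h2 := (wr R m).prod_tau p ()
  have h3 : (∏ g : (Σ _ : Unit, Fin (R.n + 1)), if (wr R m).nk g = () then (wr R m).tau p g else 1)
      = ∏ g : Fin (R.n + 1), (wr R m).tau p ⟨(), g⟩ := by
    rw [Fintype.prod_sigma]
    simp
  rw [h1, prod_cw1, ← h3, h2, norm_mul, norm_pow, Complex.norm_real, Real.norm_eq_abs,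
    abs_of_pos hc, Complex.norm_exp]
  simp

theorem bs_of {k : Fin 5} {K : Set H681.C6} {R₀ η r : ℝ} {S : L → Bool} {p : Co1 R m} {g : ℂ}
    {v : L → ℂ} (hc : 0 < c) (h1 : c ≤ 1) (hη : c ^ 2 / 100 ≤ η)
    (hp : InReg k K c R₀ (Real.log 100) S p g v)
    (ho : ∀ j, R.nk j = false → S j = false →
      ∀ l, r ≤ ‖R.pos (toSp c p) j - R.oth (toSp c p) l‖) :
    Bs R S k K c R₀ η r (toSp c p) := by
  have hy : 0 ≤ p.2.2.1 () := (Real.log_nonneg (by norm_num)).trans hp.y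
  have hg : ∀ g, ‖(toSp c p).1 g‖ ≤ 1 := fun g =>
    (norm_gap_le hp.inr hy g).trans (norm_cw1_le hc h1 g)
  have h0 : ‖(toSp c p).1 0‖ ≤ c := (norm_gap_le hp.inr hy _).trans (norm_cw1_zero hc h1)
  have hl : ‖(toSp c p).1 (Fin.last R.n)‖ ≤ c :=
    (norm_gap_le hp.inr hy _).trans (norm_cw1_last hc h1)
  refine ⟨hp.base, hg, ?_, fun j hj => ⟨norm_XX_le hg h0 _, norm_YY_le hg hl (R.rk_lt j hj)⟩,
    fun j hj hS => ?_, fun j hj hS => ?_, ho⟩
  · rw [norm_eps_toSp hc]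
    refine le_trans ?_ hη
    have h2 : Real.exp (-p.2.2.1 ()) ≤ 1 / 100 := by
      rw [Real.exp_neg, one_div]
      refine inv_anti₀ (by norm_num) ?_
      rw [← Real.exp_log (show (0 : ℝ) < 100 by norm_num)]
      exact Real.exp_le_exp.2 hp.y
    calc c ^ 2 * Real.exp (-p.2.2.1 ()) ≤ c ^ 2 * (1 / 100) :=
          mul_le_mul_of_nonneg_left h2 (by positivity)
      _ = c ^ 2 / 100 := by ring
  · have h2 := hp.zone j hj
    rwa [if_pos hS] at h2
  · have h2 := hp.zone j hj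
    rwa [if_neg (by simp [hS])] at h2

end Chart

/-! ### the theorem -/

instance : Finite Region1 := by
  have hlt : ∀ (R : Region1) (x : L), R.rk x < 15 := by
    intro R x
    cases hx : R.nk x with
    | false => rw [R.rk_core x hx]; norm_num
    | true =>
      refine (R.rk_lt x hx).trans_le ((Finset.card_filter_le _ _).trans ?_)
      simp
  let f : Region1 → (L → Bool) × (L → Fin 15) := fun R => (R.nk, fun x => ⟨R.rk x, hlt R x⟩)
  refine Finite.of_injective f fun R R' h => ?_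
  obtain ⟨nk, rk, h1, h2, h3⟩ := R
  obtain ⟨nk', rk', h1', h2', h3'⟩ := R'
  have e1 : nk = nk' := congrArg Prod.fst h
  have e2 : rk = rk' := by
    funext x
    exact congrArg Fin.val (congrFun (congrArg Prod.snd h) x)
  subst e1 e2
  rfl

theorem mrk_surj (x : L) : ∃ i : Fin 14, mrk i = x := by
  obtain ⟨a, b⟩ := x
  cases b
  · exact ⟨⟨a.1 + 7, by omega⟩, by simp [mrk]⟩
  · exact ⟨⟨a.1, by omega⟩, by simp [mrk]⟩

/-- **(b) of row NEG.** -/
theorem cptOf (X : Ext) : CptOf X := by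
  intro k K hK hKc
  obtain ⟨δ, hδ, hgap⟩ := exists_gap hK hKc
  obtain ⟨C, hC⟩ := hKc.isBounded.exists_norm_le
  refine ⟨min 1 (δ / 16), lt_min one_pos (by positivity), fun c hc hcc => ?_⟩
  have hc1 : c ≤ 1 := hcc.trans (min_le_left _ _)
  have hc2 : c ≤ δ / 16 := hcc.trans (min_le_right _ _)
  refine ⟨max 1 (2 * C), lt_max_of_lt_left one_pos, fun R₀ hR₀ r hr => ?_⟩
  have hR1 : 1 ≤ R₀ := (le_max_left _ _).trans hR₀
  have hR2 : 2 * C ≤ R₀ := (le_max_right _ _).trans hR₀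
  have hF : Fit K k c R₀ (c ^ 2 / 100) r δ C := by
    refine ⟨hgap, hC, hc, hr, hδ, by linarith, by nlinarith, by nlinarith, by nlinarith, hR1, ?_⟩
    rw [← div_eq_mul_inv, div_le_iff₀ (by linarith)]
    linarith
  have hB : ∀ x : Region1 × (L → Bool), ∃ B : ℝ, (∀ j, x.2 j = true → x.1.nk j = false) →
      ∀ y ∈ Qc x.1 x.2 k K c R₀ (c ^ 2 / 100) r, ‖X.H1 x.1 x.2 y.1 y.2.1 y.2.2‖ ≤ B := by
    intro x
    by_cases hS : ∀ j, x.2 j = true → x.1.nk j = false
    · obtain ⟨B, hB⟩ := bdd_Qc X hF hKc hS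
      exact ⟨B, fun _ => hB⟩
    · exact ⟨0, fun h => absurd h hS⟩
  choose B hB using hB
  obtain ⟨CF, hCF⟩ := (finite_range B).bddAbove
  refine ⟨Real.log 100, max 0 CF, le_max_left _ _, fun R m S p g v hp hcl ho => ?_⟩
  have ho' : ∀ j, R.nk j = false → S j = false →
      ∀ l, r ≤ ‖R.pos (toSp c p) j - R.oth (toSp c p) l‖ := by
    intro j
    obtain ⟨i, rfl⟩ := mrk_surj j
    exact ho i
  have hcl' : ∀ i j : L, i ≠ j → i.2 = j.2 → ¬ Close r S (toSp c p) g v i j := by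
    intro i j
    obtain ⟨i, rfl⟩ := mrk_surj i
    obtain ⟨j, rfl⟩ := mrk_surj j
    intro hij
    exact hcl i j fun h => hij (by rw [h])
  have hb := bs_of hc hc1 le_rfl hp ho'
  let v' : L → ℂ := fun j => if R.nk j = true then 0 else v j
  have hv : ∀ j, R.nk j = false → v' j = v j := fun j hj => if_neg (by simp [hj])
  have hsh : R.isSheet S (toSp c p) g v' := by
    refine ⟨hp.sheet.1, fun j hj => ?_⟩
    rw [hv j hj]
    exact hp.sheet.2 j hj
  have hx : (toSp c p, g, v') ∈ Qc R S k K c R₀ (c ^ 2 / 100) r := by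
    refine ⟨⟨hb, hsh, fun j hj => if_pos hj⟩, fun i j hij ht hc' => hcl' i j hij ht ?_⟩
    have e : R.sht (toSp c p) g v' = R.sht (toSp c p) g v := funext fun j => sht_congr hv j
    unfold Close at hc' ⊢
    rw [← e]
    exact hc'
  have hok' := ok_of hF hx.1 hx.2
  have hok : R.ok S (toSp c p) g v := ok_congr hv hok'
  refine ⟨hok, ?_⟩
  obtain ⟨W, h, ρ, -, hW, hρ, -, -, heq⟩ := X.hreg1 R S hp.far _ _ _ hok
  have e1 : X.H1 R S (toSp c p) g v = X.H1 R S (toSp c p) g v' := by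
    rw [heq _ hW g v hp.sheet (by simpa using hρ) fun j _ => by simpa using hρ,
      heq _ hW g v' hsh (by simpa using hρ) fun j hj => by rw [hv j hj]; simpa using hρ]
  rw [e1]
  exact (hB (R, S) hp.far _ hx).trans ((hCF (mem_range_self _)).trans (le_max_right _ _))

end Vale.Agent.P273.H752

end
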