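import Vale.Agent.P273.H578.Delta

/-!
P273, row ASY1, item (C1): two marks near each other in a neck. The roots `b i = e - d`,
`b j = e + d` are the small pair, `x = e + (X + Y)/2`, `X Y = d^2`, `y = γ (X - Y)/2`. If two neck
marks are near in the sense of the collision cut-offs, their neck coordinates are comparable.
-/

open Set Filter Topology Metric
open scoped ContDiff ComplexConjugate
open Vale.Agent.P273.H578

noncomputable section

namespace Vale.Agent.P273.H752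

/-! ### square roots close to one -/

theorem norm_sub_one_le {z : ℂ} (hz : 0 ≤ z.re) : ‖z - 1‖ ≤ ‖z ^ 2 - 1‖ := by
  have h1 : 1 ≤ ‖z + 1‖ := by
    have := Complex.abs_re_le_norm (z + 1)
    rw [Complex.add_re, Complex.one_re, abs_of_nonneg (by linarith)] at this
    linarith
  have h2 : z ^ 2 - 1 = (z - 1) * (z + 1) := by ring
  rw [h2, norm_mul]
  exact le_mul_of_one_le_right (norm_nonneg _) h1

/-- a quotient of two numbers close to one -/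
theorem re_div_pos {a b : ℂ} (ha : ‖a - 1‖ ≤ 1 / 4) (hb : ‖b - 1‖ ≤ 1 / 2) : 0 < (a / b).re := by
  have hb1 : 1 / 2 ≤ ‖b‖ := by
    have := norm_sub_norm_le (1 : ℂ) (1 - b)
    rw [norm_one, sub_sub_cancel, norm_sub_rev] at this
    linarith
  have hb0 : b ≠ 0 := norm_pos_iff.1 (by linarith)
  have h1 := mul_conj_re (y := b) (y' := a) hb0
  have h2 : a * conj b = 1 + (a - 1) + conj (b - 1) + (a - 1) * conj (b - 1) := by
    rw [map_sub, map_one]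
    ring
  have h3 : 0 < (a * conj b).re := by
    rw [h2, Complex.add_re, Complex.add_re, Complex.add_re, Complex.one_re]
    have e1 := Complex.abs_re_le_norm (a - 1)
    have e2 := Complex.abs_re_le_norm (conj (b - 1))
    have e3 := Complex.abs_re_le_norm ((a - 1) * conj (b - 1))
    rw [norm_mul] at e3
    rw [Complex.norm_conj] at e2 e3
    have e4 : ‖a - 1‖ * ‖b - 1‖ ≤ 1 / 4 * (1 / 2) :=
      mul_le_mul ha hb (norm_nonneg _) (by norm_num)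
    have f1 := (abs_le.1 e1).1
    have f2 := (abs_le.1 e2).1
    have f3 := (abs_le.1 e3).1
    linarith
  rw [h1] at h3
  have h4 : 0 < ‖b‖ ^ 2 := by have := norm_pos_iff.2 hb0; positivity
  exact (mul_pos_iff_of_pos_right h4).1 h3

section Neck

variable {ι : Type*} [Fintype ι] {b : ι → ℂ} {i j : ι} {e d : ℂ}

omit [Fintype ι] in
/-- product of the distances to the two roots of the pair -/
theorem pair_mul (hi : b i = e - d) (hj : b j = e + d) {x X Y : ℂ} (hx : x = e + (X + Y) / 2)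
    (hXY : X * Y = d ^ 2) : (x - b i) * (x - b j) = ((X - Y) / 2) ^ 2 := by
  rw [hi, hj, hx]
  linear_combination hXY

/-- **(N0)** the scale is at most `|X - Y| / 2` -/
theorem hs_le_neck (hi : b i = e - d) (hj : b j = e + d) {x X Y : ℂ} (hx : x = e + (X + Y) / 2)
    (hXY : X * Y = d ^ 2) (h : Off b x) : Hs b x ≤ ‖(X - Y) / 2‖ := by
  have h1 := Hs_le h i
  have h2 := Hs_le h j
  have h3 : ‖x - b i‖ * ‖x - b j‖ = ‖(X - Y) / 2‖ ^ 2 := by
    rw [← norm_mul, pair_mul hi hj hx hXY, norm_pow]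
  have h0 := Hs_nonneg b x
  refine le_of_sq_le_sq ?_ (norm_nonneg _)
  rw [← h3, sq]
  exact mul_le_mul h1 h2 h0 (norm_nonneg _)

theorem hs_le_dist (hi : b i = e - d) {x : ℂ} (h : Off b x) :
    Hs b x ≤ ‖x - e‖ + ‖d‖ := by
  have h1 := Hs_le h i
  refine h1.trans ?_
  have h2 : x - b i = (x - e) + d := by rw [hi]; ring
  rw [h2]
  exact norm_add_le _ _

/-- the root `(X - Y)/2` at a near point -/
theorem w_close (hi : b i = e - d) (hj : b j = e + d) {x X Y : ℂ} (hx : x = e + (X + Y) / 2)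
    (hXY : X * Y = d ^ 2) (h : Off b x) {κ : ℝ} (hκ0 : 0 ≤ κ) (hκ : κ ≤ 1 / 64) {x' : ℂ}
    (hN : ‖x - x'‖ ≤ κ * Hs b x) :
    ‖(x' - b i) * (x' - b j) / ((X - Y) / 2) ^ 2 - 1‖ ≤ 3 * κ := by
  have hs : x - b i ≠ 0 := sub_ne_zero.2 (h i)
  have ht : x - b j ≠ 0 := sub_ne_zero.2 (h j)
  have hps := norm_pos_iff.2 hs
  have hpt := norm_pos_iff.2 ht
  rw [← pair_mul hi hj hx hXY]
  have e1 : (x' - b i) * (x' - b j) / ((x - b i) * (x - b j)) - 1 =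
      (x' - x) / (x - b i) + (x' - x) / (x - b j) + (x' - x) / (x - b i) * ((x' - x) / (x - b j)) := by
    field_simp
    ring
  have h1 : ‖(x' - x) / (x - b i)‖ ≤ κ := by
    rw [norm_div, div_le_iff₀ hps, norm_sub_rev]
    exact hN.trans (mul_le_mul_of_nonneg_left (Hs_le h i) hκ0)
  have h2 : ‖(x' - x) / (x - b j)‖ ≤ κ := by
    rw [norm_div, div_le_iff₀ hpt, norm_sub_rev]
    exact hN.trans (mul_le_mul_of_nonneg_left (Hs_le h j) hκ0)
  rw [e1]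
  calc _ ≤ ‖(x' - x) / (x - b i) + (x' - x) / (x - b j)‖ +
        ‖(x' - x) / (x - b i) * ((x' - x) / (x - b j))‖ := norm_add_le _ _
    _ ≤ (κ + κ) + κ * κ := by
        refine add_le_add ((norm_add_le _ _).trans (add_le_add h1 h2)) ?_
        rw [norm_mul]
        exact mul_le_mul h1 h2 (norm_nonneg _) hκ0
    _ ≤ 3 * κ := by nlinarith

omit [Fintype ι] in
/-- comparability from the two differences -/
theorem comp_of {X Y X' Y' D : ℂ} (hD : D ≠ 0) (hXY : X * Y = D) (hXY' : X' * Y' = D) {κ : ℝ}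
    (hκ0 : 0 ≤ κ) (hκ : κ ≤ 1 / 64) (hX : ‖X' - X‖ ≤ 4 * κ * ‖(X - Y) / 2‖)
    (hY : ‖Y' - Y‖ ≤ 4 * κ * ‖(X - Y) / 2‖) :
    ‖X' - X‖ ≤ 8 * κ * ‖X‖ ∧ ‖Y' - Y‖ ≤ 8 * κ * ‖Y‖ := by
  have key : ∀ {X Y X' Y' : ℂ}, X * Y = D → X' * Y' = D → ‖X' - X‖ ≤ 4 * κ * ‖(X - Y) / 2‖ →
      ‖Y‖ ≤ ‖X‖ → ‖X' - X‖ ≤ 8 * κ * ‖X‖ ∧ ‖Y' - Y‖ ≤ 8 * κ * ‖Y‖ := by
    intro X Y X' Y' hXY hXY' hX hle
    have h1 : ‖(X - Y) / 2‖ ≤ ‖X‖ := by
      rw [norm_div]
      have h2 : ‖(2 : ℂ)‖ = 2 := by simp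
      rw [h2, div_le_iff₀ two_pos]
      have := norm_sub_le X Y
      linarith
    have h2 : ‖X' - X‖ ≤ 4 * κ * ‖X‖ := hX.trans (mul_le_mul_of_nonneg_left h1 (by positivity))
    have hX0 : X ≠ 0 := by rintro rfl; rw [zero_mul] at hXY; exact hD hXY.symm
    have hX0' : X' ≠ 0 := by rintro rfl; rw [zero_mul] at hXY'; exact hD hXY'.symm
    have hpX := norm_pos_iff.2 hX0
    have hpX' := norm_pos_iff.2 hX0'
    refine ⟨h2.trans (by nlinarith), ?_⟩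
    have h3 : (1 / 2) * ‖X‖ ≤ ‖X'‖ := by
      have h4 := norm_sub_norm_le X X'
      rw [norm_sub_rev] at h4
      nlinarith
    have h4 : Y' - Y = -(Y * ((X' - X) / X')) := by
      have h5 : X' * Y' = X * Y := by rw [hXY, hXY']
      field_simp
      linear_combination h5
    rw [h4, norm_neg, norm_mul, norm_div, mul_comm (8 * κ)]
    refine mul_le_mul_of_nonneg_left ?_ (norm_nonneg _)
    rw [div_le_iff₀ hpX']
    nlinarith
  rcases le_total ‖Y‖ ‖X‖ with h | h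
  · exact key hXY hXY' hX h
  · have h5 : (X - Y) / 2 = -((Y - X) / 2) := by ring
    rw [h5, norm_neg] at hY
    have h6 := key (by rw [mul_comm]; exact hXY) (by rw [mul_comm]; exact hXY') hY h
    exact ⟨h6.2, h6.1⟩

/-- **(N1)** two near marks of the neck on the same sheet have comparable coordinates -/
theorem neck_comp [Nonempty ι] (hi : b i = e - d) (hj : b j = e + d) (hd : d ≠ 0)
    {X Y X' Y' : ℂ} (hXY : X * Y = d ^ 2) (hXY' : X' * Y' = d ^ 2) {p q : ℂ × ℂ}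
    (hp : p.1 = e + (X + Y) / 2) (hq : q.1 = e + (X' + Y') / 2) (hP : Pt b p) (hQ : Pt b q)
    {γ γ' : ℂ} (hγ : p.2 = γ * ((X - Y) / 2)) (hγ' : q.2 = γ' * ((X' - Y') / 2))
    (hg : ‖γ' / γ - 1‖ ≤ 1 / 2) {κ : ℝ} (hκ : κ ≤ 1 / 64) (hs : Small ι κ)
    (hN : Nr κ b p q) :
    ‖X' - X‖ ≤ 8 * κ * ‖X‖ ∧ ‖Y' - Y‖ ≤ 8 * κ * ‖Y‖ ∧
      ‖(X' - Y') - (X - Y)‖ ≤ 3 * κ * ‖X - Y‖ := by
  have hκ0 := hs.1
  have hw : (X - Y) / 2 ≠ 0 := by
    intro h
    apply hP.2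
    rw [hγ, h, mul_zero]
  have hγ0 : γ ≠ 0 := by
    intro h
    apply hP.2
    rw [hγ, h, zero_mul]
  have hγ0' : γ' ≠ 0 := by
    intro h
    apply hQ.2
    rw [hγ', h, zero_mul]
  have h1 := w_close hi hj hp hXY hP.off hκ0 hκ hN.2.le
  rw [pair_mul hi hj hq hXY', ← div_pow] at h1
  have h2 := same_close hP hQ hs hN.2.le hN.1
  have h3 : (X' - Y') / 2 / ((X - Y) / 2) = (q.2 / p.2) / (γ' / γ) := by
    rw [hγ, hγ']
    field_simp
  have h4 : 0 < ((X' - Y') / 2 / ((X - Y) / 2)).re := by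
    rw [h3]
    exact re_div_pos h2 hg
  have h5 := (norm_sub_one_le h4.le).trans h1
  have h6 : ‖(X' - Y') / 2 - (X - Y) / 2‖ ≤ 3 * κ * ‖(X - Y) / 2‖ := by
    have h7 : (X' - Y') / 2 - (X - Y) / 2 =
        ((X' - Y') / 2 / ((X - Y) / 2) - 1) * ((X - Y) / 2) := by
      rw [sub_mul, div_mul_cancel₀ _ hw, one_mul]
    rw [h7, norm_mul]
    exact mul_le_mul_of_nonneg_right h5 (norm_nonneg _)
  have h7 : ‖q.1 - p.1‖ ≤ κ * ‖(X - Y) / 2‖ := by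
    rw [norm_sub_rev]
    exact hN.2.le.trans (mul_le_mul_of_nonneg_left (hs_le_neck hi hj hp hXY hP.off) hκ0)
  have h8 : ‖X' - X‖ ≤ 4 * κ * ‖(X - Y) / 2‖ := by
    have h9 : X' - X = (q.1 - p.1) + ((X' - Y') / 2 - (X - Y) / 2) := by rw [hp, hq]; ring
    rw [h9]
    refine (norm_add_le _ _).trans ?_
    linarith
  have h9 : ‖Y' - Y‖ ≤ 4 * κ * ‖(X - Y) / 2‖ := by
    have h9 : Y' - Y = (q.1 - p.1) - ((X' - Y') / 2 - (X - Y) / 2) := by rw [hp, hq]; ring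
    rw [h9]
    refine (norm_sub_le _ _).trans ?_
    linarith
  have h10 := comp_of (pow_ne_zero 2 hd) hXY hXY' hκ0 hκ h8 h9
  refine ⟨h10.1, h10.2, ?_⟩
  have h11 : (X' - Y') - (X - Y) = 2 * ((X' - Y') / 2 - (X - Y) / 2) := by ring
  have h12 : X - Y = 2 * ((X - Y) / 2) := by ring
  rw [h11, norm_mul]
  have h13 : ‖X - Y‖ = ‖(2 : ℂ)‖ * ‖(X - Y) / 2‖ := by rw [← norm_mul, ← h12]
  rw [h13]
  nlinarith [norm_nonneg (2 : ℂ)]

/-- **(N2)** near a mark of the neck every point has neck coordinates comparable with those of the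
mark, on the same sheet -/
theorem neck_exists (hi : b i = e - d) (hj : b j = e + d) (hd : d ≠ 0)
    {X Y : ℂ} (hXY : X * Y = d ^ 2) {x : ℂ} (hx : x = e + (X + Y) / 2) (hoff : Off b x)
    {κ : ℝ} (hκ0 : 0 ≤ κ) (hκ : κ ≤ 1 / 64) {x' : ℂ} (hN : ‖x - x'‖ ≤ κ * Hs b x) :
    ∃ X' Y' : ℂ, X' * Y' = d ^ 2 ∧ x' = e + (X' + Y') / 2 ∧ ‖X' - X‖ ≤ 8 * κ * ‖X‖ ∧
      ‖Y' - Y‖ ≤ 8 * κ * ‖Y‖ ∧ ‖(X' - Y') - (X - Y)‖ ≤ 3 * κ * ‖X - Y‖ := by
  have hw : (X - Y) / 2 ≠ 0 := by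
    intro h
    have h1 := pair_mul hi hj hx hXY
    rw [h, zero_pow two_ne_zero] at h1
    rcases mul_eq_zero.1 h1 with h2 | h2
    · exact hoff i (sub_eq_zero.1 h2)
    · exact hoff j (sub_eq_zero.1 h2)
  have h1 := w_close hi hj hx hXY hoff hκ0 hκ hN
  set z : ℂ := ((x' - b i) * (x' - b j) / ((X - Y) / 2) ^ 2) ^ (1 / 2 : ℂ) with hz
  have hz2 : z ^ 2 = (x' - b i) * (x' - b j) / ((X - Y) / 2) ^ 2 := by
    rw [hz, ← Complex.cpow_nat_mul, Nat.cast_ofNat, mul_one_div_cancel two_ne_zero,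
      Complex.cpow_one]
  have hre : 0 < z.re := by
    apply re_cpow_half_pos
    exact Or.inl (re_pos_of_norm (h1.trans_lt (by linarith)))
  have h5 : ‖z - 1‖ ≤ 3 * κ := (norm_sub_one_le hre.le).trans (hz2 ▸ h1)
  set w' : ℂ := (X - Y) / 2 * z with hw'
  have hw2 : w' ^ 2 = (x' - b i) * (x' - b j) := by
    rw [hw', mul_pow, hz2, ← mul_div_assoc, mul_div_cancel_left₀ _ (pow_ne_zero 2 hw)]
  have h6 : ‖w' - (X - Y) / 2‖ ≤ 3 * κ * ‖(X - Y) / 2‖ := by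
    have h7 : w' - (X - Y) / 2 = (z - 1) * ((X - Y) / 2) := by rw [hw']; ring
    rw [h7, norm_mul]
    exact mul_le_mul_of_nonneg_right h5 (norm_nonneg _)
  have h7 : ‖x' - x‖ ≤ κ * ‖(X - Y) / 2‖ := by
    rw [norm_sub_rev]
    exact hN.trans (mul_le_mul_of_nonneg_left (hs_le_neck hi hj hx hXY hoff) hκ0)
  have e1 : (x' - e + w') * (x' - e - w') = d ^ 2 := by
    have : (x' - e + w') * (x' - e - w') = (x' - e) ^ 2 - w' ^ 2 := by ring
    rw [this, hw2, hi, hj]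
    ring
  have h8 : ‖(x' - e + w') - X‖ ≤ 4 * κ * ‖(X - Y) / 2‖ := by
    have h9 : (x' - e + w') - X = (x' - x) + (w' - (X - Y) / 2) := by rw [hx]; ring
    rw [h9]
    refine (norm_add_le _ _).trans ?_
    linarith
  have h9 : ‖(x' - e - w') - Y‖ ≤ 4 * κ * ‖(X - Y) / 2‖ := by
    have h9 : (x' - e - w') - Y = (x' - x) - (w' - (X - Y) / 2) := by rw [hx]; ring
    rw [h9]
    refine (norm_sub_le _ _).trans ?_
    linarith
  have h10 := comp_of (pow_ne_zero 2 hd) hXY e1 hκ0 hκ h8 h9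
  refine ⟨x' - e + w', x' - e - w', e1, by ring, h10.1, h10.2, ?_⟩
  have h11 : (x' - e + w') - (x' - e - w') - (X - Y) = 2 * (w' - (X - Y) / 2) := by ring
  have h12 : X - Y = 2 * ((X - Y) / 2) := by ring
  rw [h11, norm_mul]
  have h13 : ‖X - Y‖ = ‖(2 : ℂ)‖ * ‖(X - Y) / 2‖ := by rw [← norm_mul, ← h12]
  rw [h13]
  nlinarith [norm_nonneg (2 : ℂ)]

/-- **(N3a)** a mark of the neck near a point outside the neck: one of its coordinates is large -/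
theorem neck_core (hi : b i = e - d) {c : ℝ} (hc : 0 < c) (hd : ‖d‖ ≤ c)
    {X Y : ℂ} {x x' : ℂ} (hx : x = e + (X + Y) / 2) (hoff : Off b x) {κ : ℝ} (hκ0 : 0 ≤ κ)
    (hκ : κ ≤ 1 / 64) (hN : ‖x - x'‖ ≤ κ * Hs b x) (hx' : c / 4 ≤ ‖x' - e‖) :
    c / 5 ≤ ‖x - e‖ ∧ (c / 5 ≤ ‖X‖ ∨ c / 5 ≤ ‖Y‖) := by
  have h1 := hs_le_dist hi hoff
  have h2 : ‖x' - e‖ ≤ ‖x - e‖ + ‖x - x'‖ := by
    have h3 : x' - e = (x - e) - (x - x') := by ring
    rw [h3]
    exact norm_sub_le _ _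
  have h3 : ‖x - x'‖ ≤ κ * (‖x - e‖ + ‖d‖) := hN.trans (mul_le_mul_of_nonneg_left h1 hκ0)
  have h0 := norm_nonneg (x - e)
  have hd0 := norm_nonneg d
  have h4 : c / 5 ≤ ‖x - e‖ := by nlinarith
  refine ⟨h4, ?_⟩
  by_contra hcon
  push Not at hcon
  have h5 : ‖x - e‖ ≤ (‖X‖ + ‖Y‖) / 2 := by
    rw [hx, add_sub_cancel_left, norm_div]
    have h6 : ‖(2 : ℂ)‖ = 2 := by simp
    rw [h6]
    exact div_le_div_of_nonneg_right (norm_add_le _ _) two_pos.le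
  linarith [hcon.1, hcon.2]

/-- **(N3b)** the same with the scale at the point outside the neck -/
theorem core_neck (hi : b i = e - d) {c : ℝ} (hc : 0 < c) (hd : ‖d‖ ≤ c)
    {X Y : ℂ} {x x' : ℂ} (hx' : x' = e + (X + Y) / 2) (hoff : Off b x) {κ : ℝ} (hκ0 : 0 ≤ κ)
    (hκ : κ ≤ 1 / 64) (hN : ‖x - x'‖ ≤ κ * Hs b x) (hx : c / 4 ≤ ‖x - e‖) :
    c / 5 ≤ ‖x' - e‖ ∧ (c / 5 ≤ ‖X‖ ∨ c / 5 ≤ ‖Y‖) := by
  have h1 := hs_le_dist hi hoff
  have h2 : ‖x - e‖ ≤ ‖x' - e‖ + ‖x - x'‖ := by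
    have h3 : x - e = (x' - e) + (x - x') := by ring
    rw [h3]
    exact norm_add_le _ _
  have h3 : ‖x - x'‖ ≤ κ * (‖x - e‖ + ‖d‖) := hN.trans (mul_le_mul_of_nonneg_left h1 hκ0)
  have h0 := norm_nonneg (x - e)
  have hd0 := norm_nonneg d
  have h4 : c / 5 ≤ ‖x' - e‖ := by nlinarith
  refine ⟨h4, ?_⟩
  by_contra hcon
  push Not at hcon
  have h5 : ‖x' - e‖ ≤ (‖X‖ + ‖Y‖) / 2 := by
    rw [hx', add_sub_cancel_left, norm_div]
    have h6 : ‖(2 : ℂ)‖ = 2 := by simp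
    rw [h6]
    exact div_le_div_of_nonneg_right (norm_add_le _ _) two_pos.le
  linarith [hcon.1, hcon.2]

end Neck

end Vale.Agent.P273.H752

end
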