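import Vale.Agent.P273.H752.Comp1

/-!
P273, row ASY1, item (C1): comparability of two near neck marks without any hypothesis on the other
roots.
-/

open Set Filter Topology Metric
open scoped ContDiff ComplexConjugate
open Vale.Agent.P273.H578

noncomputable section

namespace Vale.Agent.P273.H752

variable {ι : Type*} [Fintype ι] {b : ι → ℂ} {i j : ι} {e d : ℂ}

/-- the scale is at most the distance to a root, only this root has to be avoided -/
theorem Hs_le' {x : ℂ} {i : ι} (h : x ≠ b i) : Hs b x ≤ ‖x - b i‖ := by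
  have h1 := inv_le_norm b x i
  have h0 : 0 < ‖x - b i‖ := norm_pos_iff.2 (sub_ne_zero.2 h)
  have h2 : 0 < ‖x - b i‖⁻¹ := inv_pos.2 h0
  unfold Hs
  rw [inv_le_comm₀ (h2.trans_le h1) h0]
  exact h1

/-- **(N1)** without hypotheses on the other roots -/
theorem neck_comp0 (hi : b i = e - d) (hj : b j = e + d) (hd : d ≠ 0)
    {X Y X' Y' : ℂ} (hXY : X * Y = d ^ 2) (hXY' : X' * Y' = d ^ 2) {p q : ℂ × ℂ}
    (hp : p.1 = e + (X + Y) / 2) (hq : q.1 = e + (X' + Y') / 2)
    {γ γ' : ℂ} (hγ : p.2 = γ * ((X - Y) / 2)) (hγ' : q.2 = γ' * ((X' - Y') / 2))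
    (hg : ‖γ' / γ - 1‖ ≤ 1 / 2) {κ : ℝ} (hκ : κ ≤ 1 / 64) (hN : Nr κ b p q) :
    ‖X' - X‖ ≤ 8 * κ * ‖X‖ ∧ ‖Y' - Y‖ ≤ 8 * κ * ‖Y‖ := by
  have hp0 : p.2 ≠ 0 := by
    intro h
    have := hN.1
    unfold Same at this
    rw [h, map_zero, mul_zero, Complex.zero_re] at this
    exact lt_irrefl _ this
  have hw : (X - Y) / 2 ≠ 0 := by
    intro h
    apply hp0
    rw [hγ, h, mul_zero]
  have hγ0 : γ ≠ 0 := by
    intro h
    apply hp0
    rw [hγ, h, zero_mul]
  have hm := pair_mul hi hj hp hXY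
  have hm0 : (p.1 - b i) * (p.1 - b j) ≠ 0 := by rw [hm]; exact pow_ne_zero 2 hw
  have hs : p.1 - b i ≠ 0 := left_ne_zero_of_mul hm0
  have ht : p.1 - b j ≠ 0 := right_ne_zero_of_mul hm0
  have hps := norm_pos_iff.2 hs
  have hpt := norm_pos_iff.2 ht
  have l1 := Hs_le' (sub_ne_zero.1 hs)
  have l2 := Hs_le' (sub_ne_zero.1 ht)
  have hH0 := Hs_nonneg b p.1
  have hκ0 : 0 ≤ κ := by
    by_contra h
    have h1 := hN.2
    have h2 := norm_nonneg (p.1 - q.1)
    nlinarith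
  have hHw : Hs b p.1 ≤ ‖(X - Y) / 2‖ := by
    refine le_of_sq_le_sq ?_ (norm_nonneg _)
    rw [← norm_pow, ← hm, norm_mul, sq]
    exact mul_le_mul l1 l2 hH0 (norm_nonneg _)
  set D := q.1 - p.1 with hD
  have n1 : ‖D / (p.1 - b i)‖ ≤ κ := by
    rw [norm_div, div_le_iff₀ hps, hD, norm_sub_rev]
    exact hN.2.le.trans (mul_le_mul_of_nonneg_left l1 hκ0)
  have n2 : ‖D / (p.1 - b j)‖ ≤ κ := by
    rw [norm_div, div_le_iff₀ hpt, hD, norm_sub_rev]
    exact hN.2.le.trans (mul_le_mul_of_nonneg_left l2 hκ0)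
  have h1 : ‖((X' - Y') / 2 / ((X - Y) / 2)) ^ 2 - 1‖ ≤ 3 * κ := by
    rw [div_pow, ← pair_mul hi hj hq hXY', ← hm]
    have e1 : (q.1 - b i) * (q.1 - b j) / ((p.1 - b i) * (p.1 - b j)) - 1 =
        D / (p.1 - b i) + D / (p.1 - b j) + D / (p.1 - b i) * (D / (p.1 - b j)) := by
      rw [hD]
      field_simp
      ring
    rw [e1]
    calc _ ≤ ‖D / (p.1 - b i) + D / (p.1 - b j)‖ + ‖D / (p.1 - b i) * (D / (p.1 - b j))‖ :=
          norm_add_le _ _
      _ ≤ (κ + κ) + κ * κ := by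
          refine add_le_add ((norm_add_le _ _).trans (add_le_add n1 n2)) ?_
          rw [norm_mul]
          exact mul_le_mul n1 n2 (norm_nonneg _) hκ0
      _ ≤ 3 * κ := by nlinarith
  have h4 : 0 < ((X' - Y') / 2 / ((X - Y) / 2)).re := by
    rcases sq_close (h1.trans (by linarith)) with h | h
    · exact h.1
    · exfalso
      -- then the values would be on different sheets
      have h5 : 0 < (-(q.2 / p.2)).re := by
        have h6 : ‖-((X' - Y') / 2 / ((X - Y) / 2)) - 1‖ ≤ 1 / 4 := by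
          have e3 : -((X' - Y') / 2 / ((X - Y) / 2)) - 1 =
              -((X' - Y') / 2 / ((X - Y) / 2) + 1) := by ring
          rw [e3, norm_neg]
          exact h.2
        have e4 : -(q.2 / p.2) = -((X' - Y') / 2 / ((X - Y) / 2)) * (γ' / γ) := by
          rw [hγ, hγ']
          field_simp
        rw [e4]
        set u := -((X' - Y') / 2 / ((X - Y) / 2)) with hu
        set z := γ' / γ with hz
        have e5 : u * z = 1 + (u - 1) + (z - 1) + (u - 1) * (z - 1) := by ring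
        rw [e5, Complex.add_re, Complex.add_re, Complex.add_re, Complex.one_re]
        have a1 := Complex.abs_re_le_norm (u - 1)
        have a2 := Complex.abs_re_le_norm (z - 1)
        have a3 := Complex.abs_re_le_norm ((u - 1) * (z - 1))
        rw [norm_mul] at a3
        have a4 : ‖u - 1‖ * ‖z - 1‖ ≤ 1 / 4 * (1 / 2) :=
          mul_le_mul h6 hg (norm_nonneg _) (by norm_num)
        have f1 := (abs_le.1 a1).1
        have f2 := (abs_le.1 a2).1
        have f3 := (abs_le.1 a3).1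
        linarith
      have h7 := (same_iff hp0).1 hN.1
      rw [Complex.neg_re] at h5
      linarith
  have h5 := (norm_sub_one_le h4.le).trans h1
  have h6 : ‖(X' - Y') / 2 - (X - Y) / 2‖ ≤ 3 * κ * ‖(X - Y) / 2‖ := by
    have h7 : (X' - Y') / 2 - (X - Y) / 2 =
        ((X' - Y') / 2 / ((X - Y) / 2) - 1) * ((X - Y) / 2) := by
      rw [sub_mul, div_mul_cancel₀ _ hw, one_mul]
    rw [h7, norm_mul]
    exact mul_le_mul_of_nonneg_right h5 (norm_nonneg _)
  have h7 : ‖D‖ ≤ κ * ‖(X - Y) / 2‖ := by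
    rw [hD, norm_sub_rev]
    exact hN.2.le.trans (mul_le_mul_of_nonneg_left hHw hκ0)
  have h8 : ‖X' - X‖ ≤ 4 * κ * ‖(X - Y) / 2‖ := by
    have h9 : X' - X = D + ((X' - Y') / 2 - (X - Y) / 2) := by rw [hD, hp, hq]; ring
    rw [h9]
    refine (norm_add_le _ _).trans ?_
    linarith
  have h9 : ‖Y' - Y‖ ≤ 4 * κ * ‖(X - Y) / 2‖ := by
    have h9 : Y' - Y = D - ((X' - Y') / 2 - (X - Y) / 2) := by rw [hD, hp, hq]; ring
    rw [h9]
    refine (norm_sub_le _ _).trans ?_
    linarith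
  exact comp_of (pow_ne_zero 2 hd) hXY hXY' hκ0 hκ h8 h9

end Vale.Agent.P273.H752

end
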